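import Mathlib

/-!
# P065: chains of `j`-edges

An edge is a pair `p`, `q` of points, `p` to the left, with exactly `j` points below its line.
At each point edges leaving to the right follow edges arriving from the left when the slope
grows, so the edges fall into convex chains, at most one ending at each point. A convex chain
meets a set of points in concave position at most twice.
-/

namespace Vale.Agent.P065

/-- Twice the signed area of the triangle `p q z`: positive when `z` is left of the line `pq`. -/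
def side (p q z : ℝ × ℝ) : ℝ := (q.1 - p.1) * (z.2 - p.2) - (q.2 - p.2) * (z.1 - p.1)

/-- The slope of the line through two points. -/
noncomputable def sl (p q : ℝ × ℝ) : ℝ := (q.2 - p.2) / (q.1 - p.1)

/-- The points below the line of slope `s` through `q`. -/
noncomputable def below (P : Finset (ℝ × ℝ)) (q : ℝ × ℝ) (s : ℝ) : Finset (ℝ × ℝ) :=
  P.filter fun z => z.2 - q.2 < s * (z.1 - q.1)

/-- Pairs ordered from left to right with exactly `j` points below their line. -/
noncomputable def edges (P : Finset (ℝ × ℝ)) (j : ℕ) : Finset ((ℝ × ℝ) × (ℝ × ℝ)) :=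
  (P ×ˢ P).filter fun e => e.1.1 < e.2.1 ∧ (P.filter fun z => side e.1 e.2 z < 0).card = j

/-- Distinct first coordinates and no three points on a line. -/
structure Generic (P : Finset (ℝ × ℝ)) : Prop where
  inj : ∀ a ∈ P, ∀ b ∈ P, a.1 = b.1 → a = b
  ncl : ∀ q ∈ P, ∀ a ∈ P, ∀ b ∈ P, a ≠ q → b ≠ q → sl q a = sl q b → a = b

/-- Concave position. -/
def Cap (Q : Set (ℝ × ℝ)) : Prop :=
  ∀ a ∈ Q, ∀ b ∈ Q, ∀ c ∈ Q, a.1 < b.1 → b.1 < c.1 → sl b c < sl a b

variable {P : Finset (ℝ × ℝ)} {j : ℕ} {p q r z : ℝ × ℝ} {s : ℝ}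

theorem sl_comm (p q : ℝ × ℝ) : sl p q = sl q p := by
  rw [sl, sl, ← neg_sub p.2 q.2, ← neg_sub p.1 q.1, neg_div_neg_eq]

theorem sub_eq_sl (h : p.1 ≠ q.1) : q.2 - p.2 = sl p q * (q.1 - p.1) := by
  rw [sl, div_mul_cancel₀ _ (sub_ne_zero.2 h.symm)]

theorem side_eq (h : p.1 ≠ q.1) (z : ℝ × ℝ) :
    side p q z = (q.1 - p.1) * (z.2 - p.2 - sl p q * (z.1 - p.1)) ∧
      side p q z = (q.1 - p.1) * (z.2 - q.2 - sl p q * (z.1 - q.1)) := by
  have e := sub_eq_sl h
  constructor
  · unfold side; linear_combination (p.1 - z.1) * e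
  · unfold side; linear_combination (q.1 - z.1) * e

/-- The points below an edge, seen from either end. -/
theorem below_edge (h : p.1 < q.1) :
    (P.filter fun z => side p q z < 0) = below P p (sl p q) ∧
      (P.filter fun z => side p q z < 0) = below P q (sl p q) := by
  constructor <;> refine Finset.filter_congr fun z _ => ?_
  · rw [(side_eq h.ne z).1]
    constructor <;> intro hz <;> nlinarith
  · rw [(side_eq h.ne z).2]
    constructor <;> intro hz <;> nlinarith

theorem mem_edges {e : (ℝ × ℝ) × (ℝ × ℝ)} : e ∈ edges P j ↔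
    e.1 ∈ P ∧ e.2 ∈ P ∧ e.1.1 < e.2.1 ∧ (below P e.2 (sl e.1 e.2)).card = j := by
  simp only [edges, Finset.mem_filter, Finset.mem_product, and_assoc]
  refine and_congr_right fun _ => and_congr_right fun _ => and_congr_right fun h => ?_
  rw [(below_edge h).2]

/-- Rising through more than `j` points below forces an edge leaving to the right. -/
theorem exists_exit (hP : Generic P) (hq : q ∈ P) {a b : ℝ} (hab : a < b)
    (ha : (below P q a).card ≤ j) (hb : j < (below P q b).card) :
    ∃ r ∈ P, (q, r) ∈ edges P j ∧ a ≤ sl q r ∧ sl q r < b := by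
  classical
  set crit := P.image (sl q) with hcrit
  set T := (insert a (crit.filter fun c => a ≤ c ∧ c < b)).filter fun c => (below P q c).card ≤ j
  have hTne : T.Nonempty := ⟨a, by simp [T, ha]⟩
  set s := T.max' hTne with hs
  have hsT := T.max'_mem hTne
  rw [← hs] at hsT
  simp only [T, Finset.mem_filter, Finset.mem_insert] at hsT
  obtain ⟨hs1, hsj⟩ := hsT
  have has : a ≤ s ∧ s < b := by
    rcases hs1 with h | h
    · rw [h]; exact ⟨le_rfl, hab⟩
    · exact h.2
  set U := insert b (crit.filter fun c => s < c ∧ c < b)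
  have hUne : U.Nonempty := Finset.insert_nonempty _ _
  set t := U.min' hUne with ht
  have htU := U.min'_mem hUne
  rw [← ht] at htU
  simp only [U, Finset.mem_insert, Finset.mem_filter] at htU
  have hst : s < t := by
    rcases htU with h | h
    · rw [h]; exact has.2
    · exact h.2.1
  have htj : j < (below P q t).card := by
    rcases htU with h | h
    · rwa [h]
    · by_contra hle
      push Not at hle
      refine absurd (T.le_max' t ?_) (not_le.2 hst)
      simp only [T, Finset.mem_filter, Finset.mem_insert]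
      exact ⟨Or.inr ⟨h.1, has.1.trans hst.le, h.2.2⟩, hle⟩
  have htb : t ≤ b := U.min'_le b (Finset.mem_insert_self _ _)
  -- a point that is below at slope `t` but not at slope `s`
  have new : ∀ z ∈ below P q t, z ∉ below P q s → z ∈ P ∧ q.1 < z.1 ∧ sl q z = s := by
    intro z hzt hzs
    simp only [below, Finset.mem_filter, not_and, not_lt] at hzt hzs
    have hzs' := hzs hzt.1
    have hx : q.1 < z.1 := by
      by_contra hle
      push Not at hle
      nlinarith
    refine ⟨hzt.1, hx, ?_⟩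
    have e := sub_eq_sl (p := q) (q := z) hx.ne
    have h1 : sl q z < t := by nlinarith
    have h2 : s ≤ sl q z := by nlinarith
    by_contra hne
    refine absurd (U.min'_le (sl q z) ?_) (not_le.2 h1)
    simp only [U, Finset.mem_insert, Finset.mem_filter]
    exact Or.inr ⟨Finset.mem_image_of_mem _ hzt.1, lt_of_le_of_ne h2 (Ne.symm hne),
      h1.trans_le htb⟩
  obtain ⟨r, hr⟩ : (below P q t \ below P q s).Nonempty :=
    Finset.card_pos.1 (lt_of_lt_of_le (Nat.sub_pos_of_lt (hsj.trans_lt htj))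
      (Finset.le_card_sdiff _ _))
  rw [Finset.mem_sdiff] at hr
  obtain ⟨hrP, hrx, hrs⟩ := new r hr.1 hr.2
  have hsub : below P q t ⊆ insert r (below P q s) := by
    intro z hz
    by_cases hzs : z ∈ below P q s
    · exact Finset.mem_insert_of_mem hzs
    · obtain ⟨hzP, hzx, hze⟩ := new z hz hzs
      rw [hP.ncl q hq z hzP r hrP (fun h => hzx.ne (by rw [h])) (fun h => hrx.ne (by rw [h]))
        (hze.trans hrs.symm)]
      exact Finset.mem_insert_self _ _
  have hcard : (below P q s).card = j := by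
    have h1 := Finset.card_le_card hsub
    have h2 := Finset.card_insert_le r (below P q s)
    omega
  refine ⟨r, hrP, ?_, hrs ▸ has.1, hrs ▸ has.2⟩
  rw [edges, Finset.mem_filter, Finset.mem_product]
  exact ⟨⟨hq, hrP⟩, hrx, by rw [(below_edge hrx).1, hrs, hcard]⟩

/-- Just before an arriving edge more than `j` points are below. -/
theorem exists_before (hpq : (p, q) ∈ edges P j) (hs : s < sl p q) :
    ∃ b, s < b ∧ b < sl p q ∧ j < (below P q b).card := by
  classical
  obtain ⟨hp, -, hx, hcard⟩ := mem_edges.1 hpq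
  set C := insert s ((P.image (sl q)).filter fun c => c < sl p q)
  have hne : C.Nonempty := Finset.insert_nonempty _ _
  set c := C.max' hne with hc
  have hc1 : c < sl p q := by
    have := C.max'_mem hne
    rw [← hc] at this
    simp only [C, Finset.mem_insert, Finset.mem_filter] at this
    rcases this with h | h
    · rw [h]; exact hs
    · exact h.2
  have hc2 : s ≤ c := C.le_max' s (Finset.mem_insert_self _ _)
  refine ⟨(c + sl p q) / 2, by linarith, by linarith, ?_⟩
  have e : sl p q = sl q p := sl_comm p q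
  have ep := sub_eq_sl (p := q) (q := p) hx.ne'
  have hpn : p ∉ below P q (sl p q) := by
    simp [below, e, ← ep]
  have hsub : insert p (below P q (sl p q)) ⊆ below P q ((c + sl p q) / 2) := by
    intro z hz
    rw [Finset.mem_insert] at hz
    rcases hz with rfl | hz
    · simp only [below, Finset.mem_filter]
      refine ⟨hp, ?_⟩
      rw [ep, ← e]
      nlinarith
    · simp only [below, Finset.mem_filter] at hz ⊢
      refine ⟨hz.1, ?_⟩
      rcases le_or_gt z.1 q.1 with h | h
      · nlinarith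
      · have ez := sub_eq_sl (p := q) (q := z) h.ne
        have hlt : sl q z < sl p q := by nlinarith
        have := C.le_max' (sl q z) (by
          simp only [C, Finset.mem_insert, Finset.mem_filter]
          exact Or.inr ⟨Finset.mem_image_of_mem _ hz.1, hlt⟩)
        rw [← hc] at this
        nlinarith
  have h := Finset.card_le_card hsub
  rw [Finset.card_insert_of_notMem hpn, hcard] at h
  omega

/-- An edge leaving `q` to the right exists between two edges arriving at `q`. -/
theorem exists_between (hP : Generic P) {p' : ℝ × ℝ} (h : (p, q) ∈ edges P j)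
    (h' : (p', q) ∈ edges P j) (hs : sl p q < sl p' q) :
    ∃ r, (q, r) ∈ edges P j ∧ sl p q < sl q r ∧ sl q r < sl p' q := by
  obtain ⟨hp, hq, hx, hcard⟩ := mem_edges.1 h
  obtain ⟨b, hb1, hb2, hb⟩ := exists_before h' hs
  obtain ⟨r, hr, hqr, h1, h2⟩ := exists_exit hP hq hb1 hcard.le hb
  refine ⟨r, hqr, lt_of_le_of_ne h1 fun e => ?_, h2.trans hb2⟩
  have hx' : q.1 < r.1 := (mem_edges.1 hqr).2.2.1
  have := hP.ncl q hq p hp r hr (fun h => hx.ne (by rw [h])) (fun h => hx'.ne (by rw [h]))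
    ((sl_comm q p).trans e)
  subst this
  linarith [hx']

/-- The successor in a chain. -/
def Step (P : Finset (ℝ × ℝ)) (j : ℕ) (e f : (ℝ × ℝ) × (ℝ × ℝ)) : Prop :=
  e ∈ edges P j ∧ f ∈ edges P j ∧ f.1 = e.2 ∧ sl e.1 e.2 < sl f.1 f.2 ∧
    ∀ g ∈ edges P j, g.1 = e.2 → sl e.1 e.2 < sl g.1 g.2 → sl f.1 f.2 ≤ sl g.1 g.2

theorem step_left_unique (hP : Generic P) {e e' f : (ℝ × ℝ) × (ℝ × ℝ)} (h : Step P j e f)
    (h' : Step P j e' f) : e = e' := by
  obtain ⟨he, -, h1, h2, h3⟩ := h
  obtain ⟨he', -, h1', h2', h3'⟩ := h'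
  obtain ⟨p, q⟩ := e
  obtain ⟨p', q'⟩ := e'
  simp only at h1 h1' h2 h2' h3 h3' ⊢
  obtain rfl : q = q' := h1.symm.trans h1'
  rcases lt_trichotomy (sl p q) (sl p' q) with h | h | h
  · obtain ⟨r, hr, hr1, hr2⟩ := exists_between hP he he' h
    have := h3 (q, r) hr rfl hr1
    simp only at this
    linarith
  · obtain ⟨hp, hq, hx, -⟩ := mem_edges.1 he
    obtain ⟨hp', -, hx', -⟩ := mem_edges.1 he'
    simp only at hx hx'
    rw [hP.ncl q hq p hp p' hp' (fun h => hx.ne (by rw [h])) (fun h => hx'.ne (by rw [h]))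
      (by rw [sl_comm q p, sl_comm q p', h])]
  · obtain ⟨r, hr, hr1, hr2⟩ := exists_between hP he' he h
    have := h3' (q, r) hr rfl hr1
    simp only at this
    linarith

/-- The slope of a union of two consecutive segments lies between theirs. -/
theorem sl_mid {a b c : ℝ × ℝ} (h1 : a.1 < b.1) (h2 : b.1 < c.1) (h : sl a b < sl b c) :
    sl a b < sl a c ∧ sl a c < sl b c := by
  have e1 := sub_eq_sl (p := a) (q := b) h1.ne
  have e2 := sub_eq_sl (p := b) (q := c) h2.ne
  have e3 := sub_eq_sl (p := a) (q := c) (h1.trans h2).ne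
  constructor <;> nlinarith

theorem transGen_props {e f : (ℝ × ℝ) × (ℝ × ℝ)} (h : Relation.TransGen (Step P j) e f) :
    e.2.1 < f.2.1 ∧ sl e.1 e.2 < sl e.2 f.2 ∧ sl e.2 f.2 ≤ sl f.1 f.2 := by
  induction h with
  | single h =>
    obtain ⟨-, hf, h1, h2, -⟩ := h
    have hx := (mem_edges.1 hf).2.2.1
    rw [h1] at h2 hx ⊢
    exact ⟨hx, h2, le_rfl⟩
  | tail _ h ih =>
    obtain ⟨-, hf, h1, h2, -⟩ := h
    have hx := (mem_edges.1 hf).2.2.1
    rw [h1] at h2 hx ⊢
    obtain ⟨i1, i2, i3⟩ := ih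
    obtain ⟨m1, m2⟩ := sl_mid i1 hx (i3.trans_lt h2)
    exact ⟨i1.trans hx, i2.trans m1, m2.le⟩

/-- Last edge of a chain. -/
def Terminal (P : Finset (ℝ × ℝ)) (j : ℕ) (t : (ℝ × ℝ) × (ℝ × ℝ)) : Prop :=
  t ∈ edges P j ∧ ∀ f, ¬ Step P j t f

theorem exists_step {e g : (ℝ × ℝ) × (ℝ × ℝ)} (he : e ∈ edges P j) (hg : g ∈ edges P j)
    (h1 : g.1 = e.2) (h2 : sl e.1 e.2 < sl g.1 g.2) : ∃ f, Step P j e f := by
  classical
  obtain ⟨f, hf, hmin⟩ :=
    ((edges P j).filter fun g => g.1 = e.2 ∧ sl e.1 e.2 < sl g.1 g.2).exists_min_image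
      (fun g => sl g.1 g.2) ⟨g, Finset.mem_filter.2 ⟨hg, h1, h2⟩⟩
  rw [Finset.mem_filter] at hf
  exact ⟨f, he, hf.1, hf.2.1, hf.2.2, fun g hg h1 h2 => hmin g (Finset.mem_filter.2 ⟨hg, h1, h2⟩)⟩

theorem exists_terminal :
    ∀ (m : ℕ) (e : (ℝ × ℝ) × (ℝ × ℝ)), (P.filter fun z => e.2.1 < z.1).card ≤ m →
      e ∈ edges P j → ∃ t, Terminal P j t ∧ Relation.ReflTransGen (Step P j) e t := by
  intro m
  induction m with
  | zero =>
    intro e hm he
    refine ⟨e, ⟨he, fun f hf => ?_⟩, Relation.ReflTransGen.refl⟩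
    obtain ⟨-, hfP, hfx, -⟩ := mem_edges.1 hf.2.1
    rw [hf.2.2.1] at hfx
    have : f.2 ∈ P.filter fun z => e.2.1 < z.1 := Finset.mem_filter.2 ⟨hfP, hfx⟩
    rw [Finset.card_eq_zero.1 (Nat.le_zero.1 hm)] at this
    exact absurd this (Finset.notMem_empty _)
  | succ m ih =>
    intro e hm he
    by_cases h : ∃ f, Step P j e f
    · obtain ⟨f, hf⟩ := h
      obtain ⟨-, hfP, hfx, -⟩ := mem_edges.1 hf.2.1
      rw [hf.2.2.1] at hfx
      have hlt : (P.filter fun z => f.2.1 < z.1).card < (P.filter fun z => e.2.1 < z.1).card := by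
        refine Finset.card_lt_card (Finset.ssubset_iff_of_subset ?_ |>.2 ⟨f.2, ?_, ?_⟩)
        · intro z hz
          rw [Finset.mem_filter] at hz ⊢
          exact ⟨hz.1, hfx.trans hz.2⟩
        · exact Finset.mem_filter.2 ⟨hfP, hfx⟩
        · simp
      obtain ⟨t, ht, htr⟩ := ih f (by omega) hf.2.1
      exact ⟨t, ht, htr.head hf⟩
    · exact ⟨e, ⟨he, not_exists.1 h⟩, Relation.ReflTransGen.refl⟩

theorem terminal_unique (hP : Generic P) {t t' : (ℝ × ℝ) × (ℝ × ℝ)} (h : Terminal P j t)
    (h' : Terminal P j t') (he : t.2 = t'.2) : t = t' := by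
  obtain ⟨p, q⟩ := t
  obtain ⟨p', q'⟩ := t'
  simp only at he
  subst he
  rcases lt_trichotomy (sl p q) (sl p' q) with hs | hs | hs
  · obtain ⟨r, hr, hr1, -⟩ := exists_between hP h.1 h'.1 hs
    obtain ⟨f, hf⟩ := exists_step h.1 hr rfl hr1
    exact absurd hf (h.2 f)
  · obtain ⟨hp, hq, hx, -⟩ := mem_edges.1 h.1
    obtain ⟨hp', -, hx', -⟩ := mem_edges.1 h'.1
    simp only at hx hx'
    rw [hP.ncl q hq p hp p' hp' (fun h => hx.ne (by rw [h])) (fun h => hx'.ne (by rw [h]))
      (by rw [sl_comm q p, sl_comm q p', hs])]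
  · obtain ⟨r, hr, hr1, -⟩ := exists_between hP h'.1 h.1 hs
    obtain ⟨f, hf⟩ := exists_step h'.1 hr rfl hr1
    exact absurd hf (h'.2 f)

/-- A set in concave position receives at most `2 n` edges from the left. -/
theorem card_edges_cap (hP : Generic P) {Q : Finset (ℝ × ℝ)} (hQ : Cap (Q : Set (ℝ × ℝ))) (j : ℕ) :
    ((edges P j).filter fun e => e.2 ∈ Q).card ≤ 2 * P.card := by
  classical
  have hT : ∀ e ∈ edges P j, ∃ t, Terminal P j t ∧ Relation.ReflTransGen (Step P j) e t :=
    fun e he => exists_terminal _ e le_rfl he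
  choose T hT1 hT2 using hT
  set B := (edges P j).filter fun e => e.2 ∈ Q with hB
  let F : (ℝ × ℝ) × (ℝ × ℝ) → ℝ × ℝ := fun e => if h : e ∈ edges P j then (T e h).2 else e.2
  have hF : ∀ e (h : e ∈ edges P j), F e = (T e h).2 := fun e h => dif_pos h
  have hmem : B.image F ⊆ P := by
    intro x hx
    rw [Finset.mem_image] at hx
    obtain ⟨e, he, rfl⟩ := hx
    rw [hF e (Finset.mem_filter.1 he).1]
    exact (mem_edges.1 (hT1 e (Finset.mem_filter.1 he).1).1).2.1
  refine (Finset.card_le_mul_card_image B 2 fun x _ => ?_).trans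
    (Nat.mul_le_mul_left 2 (Finset.card_le_card hmem))
  by_contra hgt
  push Not at hgt
  obtain ⟨a, b, c, ha, hb, hc, hab, hac, hbc⟩ := Finset.two_lt_card_iff.1 hgt
  simp only [Finset.mem_filter, hB] at ha hb hc
  have comp : ∀ {u v : (ℝ × ℝ) × (ℝ × ℝ)}, u ∈ edges P j → v ∈ edges P j → F u = F v → u ≠ v →
      Relation.TransGen (Step P j) u v ∨ Relation.TransGen (Step P j) v u := by
    intro u v hu hv huv hne
    rw [hF u hu, hF v hv] at huv
    have e := terminal_unique hP (hT1 u hu) (hT1 v hv) huv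
    have h1 := (Relation.reflTransGen_swap).2 (hT2 u hu)
    have h2 := (Relation.reflTransGen_swap).2 (hT2 v hv)
    rw [← e] at h2
    have hu' : Relator.RightUnique (Function.swap (Step P j)) :=
      fun _ _ _ h h' => step_left_unique hP h h'
    rcases h1.total_of_right_unique hu' h2 with h | h
    · rcases Relation.reflTransGen_iff_eq_or_transGen.1 (Relation.reflTransGen_swap.1 h) with h | h
      · exact absurd h hne
      · exact Or.inr h
    · rcases Relation.reflTransGen_iff_eq_or_transGen.1 (Relation.reflTransGen_swap.1 h) with h | h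
      · exact absurd h.symm hne
      · exact Or.inl h
  have bad : ∀ {u v w : (ℝ × ℝ) × (ℝ × ℝ)}, u.2 ∈ Q → v.2 ∈ Q → w.2 ∈ Q →
      Relation.TransGen (Step P j) u v → Relation.TransGen (Step P j) v w → False := by
    intro u v w hu hv hw huv hvw
    obtain ⟨x1, -, s1⟩ := transGen_props huv
    obtain ⟨x2, s2, -⟩ := transGen_props hvw
    linarith [hQ u.2 hu v.2 hv w.2 hw x1 x2]
  rcases comp ha.1.1 hb.1.1 (ha.2.trans hb.2.symm) hab with h1 | h1 <;>
    rcases comp ha.1.1 hc.1.1 (ha.2.trans hc.2.symm) hac with h2 | h2 <;>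
    rcases comp hb.1.1 hc.1.1 (hb.2.trans hc.2.symm) hbc with h3 | h3
  · exact bad ha.1.2 hb.1.2 hc.1.2 h1 h3
  · exact bad ha.1.2 hc.1.2 hb.1.2 h2 h3
  · exact bad hc.1.2 ha.1.2 hb.1.2 h2 h1
  · exact bad hc.1.2 ha.1.2 hb.1.2 h2 h1
  · exact bad hb.1.2 ha.1.2 hc.1.2 h1 h2
  · exact bad hb.1.2 ha.1.2 hc.1.2 h1 h2
  · exact bad hb.1.2 hc.1.2 ha.1.2 h3 h2
  · exact bad hc.1.2 hb.1.2 ha.1.2 h3 h1

end Vale.Agent.P065
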