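import Vale.Agent.P065.Chain

/-!
# P065: `j`-edges of a set covered by few sets in convex position

A set in convex position splits, by a direction with distinct projections, into a concave and a
convex part; the reflection `(x, y) ↦ (x, -y)` exchanges the two.
-/

namespace Vale.Agent.P065

/-- Reflection in the horizontal axis. -/
def mirror (z : ℝ × ℝ) : ℝ × ℝ := (z.1, -z.2)

/-- A linear shear, which preserves oriented areas. -/
def shear (t : ℝ) : (ℝ × ℝ) →ₗ[ℝ] ℝ × ℝ where
  toFun z := (z.1 + t * z.2, z.2)
  map_add' a b := by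
    ext
    · simp; ring
    · simp
  map_smul' c a := by
    ext
    · simp; ring
    · simp

/-- No point of the set lies in the convex hull of the others. -/
def ConvexPosition (Q : Set (ℝ × ℝ)) : Prop := ∀ b ∈ Q, b ∉ convexHull ℝ (Q \ {b})

theorem mirror_mirror (z : ℝ × ℝ) : mirror (mirror z) = z := by simp [mirror]

theorem mirror_injective : Function.Injective mirror :=
  Function.LeftInverse.injective mirror_mirror

theorem sl_mirror (p q : ℝ × ℝ) : sl (mirror p) (mirror q) = -sl p q := by
  simp [sl, mirror, neg_div', neg_add_eq_sub]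

theorem side_mirror (p q z : ℝ × ℝ) : side (mirror p) (mirror q) (mirror z) = -side p q z := by
  simp only [side, mirror]; ring

theorem shear_injective (t : ℝ) : Function.Injective (shear t) := by
  intro a b h
  simp only [shear, LinearMap.coe_mk, AddHom.coe_mk, Prod.mk.injEq] at h
  refine Prod.ext ?_ h.2
  rw [h.2] at h
  linarith [h.1]

theorem side_shear (t : ℝ) (p q z : ℝ × ℝ) :
    side (shear t p) (shear t q) (shear t z) = side p q z := by
  simp only [side, shear, LinearMap.coe_mk, AddHom.coe_mk]; ring

theorem Generic.mirror {P : Finset (ℝ × ℝ)} (hP : Generic P) : Generic (P.image mirror) := by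
  constructor
  · simp only [Finset.forall_mem_image]
    intro a ha b hb h
    rw [hP.inj a ha b hb h]
  · simp only [Finset.forall_mem_image, sl_mirror, neg_inj]
    intro q hq a ha b hb haq hbq h
    rw [hP.ncl q hq a ha b hb (fun e => haq (by rw [e])) (fun e => hbq (by rw [e])) h]

/-- Every point of a set in convex position is upper or lower. -/
theorem upper_or_lower {Q : Set (ℝ × ℝ)} (hQ : ConvexPosition Q) {b : ℝ × ℝ} (hb : b ∈ Q) :
    (∀ a ∈ Q, ∀ c ∈ Q, a.1 < b.1 → b.1 < c.1 → sl b c < sl a b) ∨
      ∀ a ∈ Q, ∀ c ∈ Q, a.1 < b.1 → b.1 < c.1 → sl a b < sl b c := by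
  by_contra hcon
  simp only [not_or, not_forall, not_lt] at hcon
  obtain ⟨⟨a, ha, c, hc, hab, hbc, h1⟩, a', ha', c', hc', hab', hbc', h2⟩ := hcon
  apply hQ b hb
  set S := convexHull ℝ (Q \ {b}) with hS
  have mem : ∀ x ∈ Q, x.1 ≠ b.1 → x ∈ S := fun x hx h =>
    subset_convexHull ℝ _ ⟨hx, fun e => h (by rw [Set.mem_singleton_iff.1 e])⟩
  -- the point of the segment `a c` with the first coordinate of `b`
  have chord : ∀ a ∈ Q, ∀ c ∈ Q, a.1 < b.1 → b.1 < c.1 →
      ∃ y, (b.1, y) ∈ S ∧ y - b.2 = (c.1 - b.1) * (b.1 - a.1) / (c.1 - a.1) * (sl b c - sl a b) := by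
    intro a ha c hc hab hbc
    have hac : 0 < c.1 - a.1 := by linarith
    set w := (b.1 - a.1) / (c.1 - a.1) with hw
    have hw0 : 0 ≤ w := div_nonneg (by linarith) hac.le
    have hw1 : w ≤ 1 := (div_le_one hac).2 (by linarith)
    refine ⟨(1 - w) * a.2 + w * c.2, ?_, ?_⟩
    · have h := (convex_convexHull ℝ (Q \ {b})) (mem a ha hab.ne) (mem c hc hbc.ne')
        (by linarith : 0 ≤ 1 - w) hw0 (by ring)
      convert h using 1
      ext
      · simp only [Prod.fst_add, Prod.smul_fst, smul_eq_mul]
        rw [hw]; field_simp; ring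
      · simp [smul_eq_mul]
    · have e1 := sub_eq_sl (p := a) (q := b) hab.ne
      have e2 := sub_eq_sl (p := b) (q := c) hbc.ne
      rw [hw]; field_simp
      linear_combination (b.1 - a.1) * e2 - (c.1 - b.1) * e1
  obtain ⟨y, hy, ey⟩ := chord a ha c hc hab hbc
  obtain ⟨y', hy', ey'⟩ := chord a' ha' c' hc' hab' hbc'
  have g1 : b.2 ≤ y := by
    have : 0 ≤ (c.1 - b.1) * (b.1 - a.1) / (c.1 - a.1) :=
      div_nonneg (mul_nonneg (by linarith) (by linarith)) (by linarith)
    nlinarith
  have g2 : y' ≤ b.2 := by
    have : 0 ≤ (c'.1 - b.1) * (b.1 - a'.1) / (c'.1 - a'.1) :=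
      div_nonneg (mul_nonneg (by linarith) (by linarith)) (by linarith)
    nlinarith
  rcases eq_or_lt_of_le (g2.trans g1) with e | e
  · have : y = b.2 := le_antisymm (e ▸ g2) g1
    rw [this] at hy
    exact hy
  · have hd : 0 < y - y' := by linarith
    have h := (convex_convexHull ℝ (Q \ {b})) hy' hy
      (div_nonneg (by linarith : 0 ≤ y - b.2) hd.le) (div_nonneg (by linarith : 0 ≤ b.2 - y') hd.le)
      (by field_simp; ring)
    convert h using 1
    ext
    · simp only [Prod.fst_add, Prod.smul_fst, smul_eq_mul]; field_simp; ring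
    · simp only [Prod.snd_add, Prod.smul_snd, smul_eq_mul]; field_simp; ring

/-- The three sign classes of a line through two points of a generic set. -/
theorem card_sides {P : Finset (ℝ × ℝ)} (hP : Generic P) {p q : ℝ × ℝ} (hp : p ∈ P) (hq : q ∈ P)
    (h : p.1 < q.1) :
    (P.filter fun z => side p q z < 0).card + (P.filter fun z => 0 < side p q z).card + 2
      = P.card := by
  classical
  have hz : (P.filter fun z => side p q z = 0) = {p, q} := by
    ext z
    simp only [Finset.mem_filter, Finset.mem_insert, Finset.mem_singleton]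
    constructor
    · rintro ⟨hzP, hz⟩
      by_contra hne
      push Not at hne
      have hx : z.1 ≠ p.1 := fun e => hne.1 (hP.inj z hzP p hp e)
      rw [(side_eq h.ne z).1, mul_eq_zero, sub_eq_sl hx.symm, ← sub_mul, mul_eq_zero] at hz
      rcases hz with h' | h' | h'
      · linarith
      · exact hne.2 (hP.ncl p hp z hzP q hq hne.1 (fun e => h.ne' (by rw [e])) (by linarith))
      · exact hx (by linarith)
    · rintro (rfl | rfl)
      · exact ⟨hp, by simp [side]⟩
      · exact ⟨hq, by unfold side; ring⟩
  have h1 := Finset.card_filter_add_card_filter_not (s := P) fun z => side p q z < 0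
  have h2 := Finset.card_filter_add_card_filter_not (s := P.filter fun z => ¬ side p q z < 0)
    fun z => 0 < side p q z
  rw [Finset.filter_filter, Finset.filter_filter] at h2
  have e1 : (P.filter fun z => ¬ side p q z < 0 ∧ 0 < side p q z) =
      P.filter fun z => 0 < side p q z :=
    Finset.filter_congr fun z _ => ⟨fun h => h.2, fun h => ⟨not_lt.2 h.le, h⟩⟩
  have e2 : (P.filter fun z => ¬ side p q z < 0 ∧ ¬ 0 < side p q z) = {p, q} := by
    rw [← hz]
    exact Finset.filter_congr fun z _ =>
      ⟨fun h => le_antisymm (not_lt.1 h.2) (not_lt.1 h.1), fun h => by simp [h]⟩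
  rw [e1, e2, Finset.card_pair (fun e => h.ne (by rw [e]))] at h2
  omega

/-- `j`-edges ending in a set in convex position. -/
theorem card_edges_convex {P Q : Finset (ℝ × ℝ)} (hP : Generic P)
    (hQ : ConvexPosition (Q : Set (ℝ × ℝ))) (j : ℕ) :
    ((edges P j).filter fun e => e.2 ∈ Q).card ≤ 4 * P.card := by
  classical
  set U := Q.filter fun b => ∀ a ∈ Q, ∀ c ∈ Q, a.1 < b.1 → b.1 < c.1 → sl b c < sl a b with hU
  set D := Q.filter fun b => ∀ a ∈ Q, ∀ c ∈ Q, a.1 < b.1 → b.1 < c.1 → sl a b < sl b c with hD
  have hUc : Cap (U : Set (ℝ × ℝ)) := by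
    intro a ha b hb c hc
    simp only [hU, Finset.coe_filter, Set.mem_ofPred_eq] at ha hb hc
    exact hb.2 a ha.1 c hc.1
  have hDc : Cap ((D.image mirror : Finset (ℝ × ℝ)) : Set (ℝ × ℝ)) := by
    simp only [Cap, Finset.mem_coe, Finset.forall_mem_image, sl_mirror, neg_lt_neg_iff]
    intro a ha b hb c hc
    simp only [hD, Finset.mem_filter] at ha hb hc
    exact hb.2 a ha.1 c hc.1
  have sub : ((edges P j).filter fun e => e.2 ∈ Q) ⊆
      ((edges P j).filter fun e => e.2 ∈ U) ∪ ((edges P j).filter fun e => e.2 ∈ D) := by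
    intro e he
    simp only [Finset.mem_filter, Finset.mem_union, hU, hD] at he ⊢
    rcases upper_or_lower hQ (Finset.mem_coe.2 he.2) with h | h
    · exact Or.inl ⟨he.1, he.2, h⟩
    · exact Or.inr ⟨he.1, he.2, h⟩
  have h1 := card_edges_cap hP hUc j
  have h2 := card_edges_cap hP.mirror hDc (P.card - 2 - j)
  rw [Finset.card_image_of_injective P mirror_injective] at h2
  have h3 : ((edges P j).filter fun e => e.2 ∈ D).card ≤
      ((edges (P.image mirror) (P.card - 2 - j)).filter fun e => e.2 ∈ D.image mirror).card := by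
    refine Finset.card_le_card_of_injOn (fun e => (mirror e.1, mirror e.2)) ?_ ?_
    · intro e he
      simp only [edges, Finset.coe_filter, Set.mem_ofPred_eq, Finset.mem_filter,
        Finset.mem_product] at he ⊢
      obtain ⟨⟨⟨hp, hq⟩, hx, hc⟩, heD⟩ := he
      refine ⟨⟨⟨Finset.mem_image_of_mem _ hp, Finset.mem_image_of_mem _ hq⟩, hx, ?_⟩,
        Finset.mem_image_of_mem _ heD⟩
      rw [Finset.filter_image, Finset.card_image_of_injective _ mirror_injective]
      simp only [side_mirror, neg_lt_zero]
      have := card_sides hP hp hq hx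
      omega
    · intro e _ e' _ h
      simp only [Prod.mk.injEq] at h
      exact Prod.ext (mirror_injective h.1) (mirror_injective h.2)
  have h4 := (Finset.card_le_card sub).trans (Finset.card_union_le _ _)
  omega

/-- The bound for a set with distinct first coordinates. -/
theorem card_edges_le {P : Finset (ℝ × ℝ)} (hP : Generic P) {L : ℕ}
    (cov : Fin L → Finset (ℝ × ℝ)) (hconv : ∀ i, ConvexPosition (cov i : Set (ℝ × ℝ)))
    (hcov : ∀ p ∈ P, ∃ i, p ∈ cov i) (j : ℕ) : (edges P j).card ≤ 4 * P.card * L := by
  classical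
  have sub : edges P j ⊆ Finset.univ.biUnion fun i => (edges P j).filter fun e => e.2 ∈ cov i := by
    intro e he
    obtain ⟨i, hi⟩ := hcov e.2 (mem_edges.1 he).2.1
    exact Finset.mem_biUnion.2 ⟨i, Finset.mem_univ i, Finset.mem_filter.2 ⟨he, hi⟩⟩
  refine (Finset.card_le_card sub).trans (Finset.card_biUnion_le.trans ?_)
  refine (Finset.sum_le_sum fun i _ => card_edges_convex hP (hconv i) j).trans ?_
  simp [mul_comm]

/-- Ordered pairs with exactly `j` points to the left of their line. -/
theorem card_pairs_le {P : Finset (ℝ × ℝ)}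
    (hgp : ∀ a ∈ P, ∀ b ∈ P, ∀ c ∈ P, a ≠ b → a ≠ c → b ≠ c → side a b c ≠ 0) {L : ℕ}
    (cov : Fin L → Finset (ℝ × ℝ)) (hconv : ∀ i, ConvexPosition (cov i : Set (ℝ × ℝ)))
    (hcov : ∀ p ∈ P, ∃ i, p ∈ cov i) (j : ℕ) :
    ((P ×ˢ P).filter fun e => e.1 ≠ e.2 ∧ (P.filter fun z => 0 < side e.1 e.2 z).card = j).card
      ≤ 8 * P.card * L := by
  classical
  obtain ⟨t, ht⟩ := Infinite.exists_notMem_finset
    ((P ×ˢ P).image fun e => -(e.1.1 - e.2.1) / (e.1.2 - e.2.2))
  have hinj := shear_injective t
  have hP : Generic (P.image (shear t)) := by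
    constructor
    · simp only [Finset.forall_mem_image]
      intro a ha b hb h
      simp only [shear, LinearMap.coe_mk, AddHom.coe_mk] at h
      by_cases h2 : a.2 = b.2
      · rw [Prod.ext (by rw [h2] at h; linarith : a.1 = b.1) h2]
      · refine absurd (Finset.mem_image.2 ⟨(a, b), Finset.mem_product.2 ⟨ha, hb⟩, ?_⟩) ht
        rw [div_eq_iff (sub_ne_zero.2 h2)]
        simp only
        linarith
    · simp only [Finset.forall_mem_image]
      intro q hq a ha b hb haq hbq h
      by_contra hne
      have key := hgp q hq a ha b hb (fun e => haq (by rw [e])) (fun e => hbq (by rw [e]))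
        (fun e => hne (by rw [e]))
      rw [← side_shear t] at key
      apply key
      rcases eq_or_ne (shear t q).1 (shear t a).1 with hx | hx
      · rcases eq_or_ne (shear t q).1 (shear t b).1 with hy | hy
        · simp only [side, ← hx, ← hy]; ring
        · exfalso
          by_cases h2 : q.2 = a.2
          · simp only [shear, LinearMap.coe_mk, AddHom.coe_mk] at hx
            exact haq (by rw [Prod.ext (by rw [h2] at hx; linarith : a.1 = q.1) h2.symm])
          · refine absurd (Finset.mem_image.2 ⟨(q, a), Finset.mem_product.2 ⟨hq, ha⟩, ?_⟩) ht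
            simp only [shear, LinearMap.coe_mk, AddHom.coe_mk] at hx
            rw [div_eq_iff (sub_ne_zero.2 h2)]
            simp only
            linarith
      · rw [(side_eq hx (shear t b)).1, h]
        rcases eq_or_ne (shear t q).1 (shear t b).1 with hy | hy
        · exfalso
          by_cases h2 : q.2 = b.2
          · simp only [shear, LinearMap.coe_mk, AddHom.coe_mk] at hy
            exact hbq (by rw [Prod.ext (by rw [h2] at hy; linarith : b.1 = q.1) h2.symm])
          · refine absurd (Finset.mem_image.2 ⟨(q, b), Finset.mem_product.2 ⟨hq, hb⟩, ?_⟩) ht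
            simp only [shear, LinearMap.coe_mk, AddHom.coe_mk] at hy
            rw [div_eq_iff (sub_ne_zero.2 h2)]
            simp only
            linarith
        · rw [← sub_eq_sl hy]; ring
  set P' := P.image (shear t) with hP'
  have hn : P'.card = P.card := Finset.card_image_of_injective P hinj
  have hconv' : ∀ i, ConvexPosition (((cov i).image (shear t) : Finset (ℝ × ℝ)) : Set (ℝ × ℝ)) := by
    intro i b hb
    rw [Finset.coe_image] at hb ⊢
    obtain ⟨x, hx, rfl⟩ := hb
    rw [← Set.image_singleton, ← Set.image_sdiff hinj, ← LinearMap.image_convexHull,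
      hinj.mem_set_image]
    exact hconv i x hx
  have hcov' : ∀ p ∈ P', ∃ i, p ∈ (cov i).image (shear t) := by
    simp only [hP', Finset.forall_mem_image]
    intro p hp
    obtain ⟨i, hi⟩ := hcov p hp
    exact ⟨i, Finset.mem_image_of_mem _ hi⟩
  have b1 := card_edges_le hP _ hconv' hcov' j
  have b2 := card_edges_le hP _ hconv' hcov' (P'.card - 2 - j)
  rw [hn] at b1 b2
  let f : (ℝ × ℝ) × (ℝ × ℝ) → (ℝ × ℝ) × (ℝ × ℝ) := fun e => (shear t e.1, shear t e.2)
  have hf : Function.Injective f := fun a b h => by
    simp only [f, Prod.mk.injEq] at h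
    exact Prod.ext (hinj h.1) (hinj h.2)
  rw [← Finset.card_image_of_injective _ hf]
  refine (Finset.card_le_card (t := edges P' (P'.card - 2 - j) ∪ (edges P' j).image Prod.swap)
    ?_).trans ?_
  · simp only [Finset.subset_iff, Finset.forall_mem_image, Finset.mem_filter, Finset.mem_product,
      Finset.mem_union, f]
    rintro ⟨p, q⟩ ⟨⟨hp, hq⟩, hne, hcard⟩
    simp only at hne hcard hp hq ⊢
    have hp' : shear t p ∈ P' := Finset.mem_image_of_mem _ hp
    have hq' : shear t q ∈ P' := Finset.mem_image_of_mem _ hq
    have habove : (P'.filter fun z => 0 < side (shear t p) (shear t q) z).card = j := by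
      rw [hP', Finset.filter_image, Finset.card_image_of_injective _ hinj]
      simp only [side_shear, hcard]
    rcases lt_trichotomy (shear t p).1 (shear t q).1 with hx | hx | hx
    · left
      rw [edges, Finset.mem_filter, Finset.mem_product]
      refine ⟨⟨hp', hq'⟩, hx, ?_⟩
      have := card_sides hP hp' hq' hx
      simp only
      omega
    · exact absurd (hinj (hP.inj _ hp' _ hq' hx)) hne
    · right
      refine Finset.mem_image.2 ⟨(shear t q, shear t p), ?_, rfl⟩
      rw [edges, Finset.mem_filter, Finset.mem_product]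
      refine ⟨⟨hq', hp'⟩, hx, ?_⟩
      rw [← habove]
      refine congrArg Finset.card (Finset.filter_congr fun z _ => ?_)
      have : side (shear t q) (shear t p) z = -side (shear t p) (shear t q) z := by
        unfold side; ring
      rw [this, neg_lt_zero]
  · have h := Finset.card_union_le (edges P' (P'.card - 2 - j)) ((edges P' j).image Prod.swap)
    rw [Finset.card_image_of_injective _ Prod.swap_injective, hn] at h
    rw [hn]
    linarith

end Vale.Agent.P065
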